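import Vale.Agent.P181.DGx.H514.Op

set_option autoImplicit false

/-!
# P181, DG, D4b: membership of the symmetrised operator
-/

open MvPolynomial

namespace Vale.Agent.P181.H435

open Vale.Agent.P181.T4 (HW)
open Vale.Agent.P181.SZR3 (colD)
open Vale.Agent.P181.SZT0 (rc inj_pr rc_inj coeff_rc rc_mem_HW)
open Vale.Agent.P181.DG.H514

variable {m : ℕ} {L : Type}

lemma sum_pderiv_dl [Fintype L] [DecidableEq L] {N : ℕ} (i : Fin m) (a b : Fin N)
    (c : L ⊕ Fin N) (f : MvPolynomial (Fin m × (L ⊕ Fin N)) ℂ) :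
    ∑ j : Fin N, pderiv (i, (Sum.inr j : L ⊕ Fin N)) (dl (Sum.inr a) (Sum.inr b) c f) =
      dl (Sum.inr a) (Sum.inr b) c (∑ j : Fin N, pderiv (i, (Sum.inr j : L ⊕ Fin N)) f) := by
  rw [map_sum]
  have h : ∀ j : Fin N, pderiv (i, (Sum.inr j : L ⊕ Fin N)) (dl (Sum.inr a) (Sum.inr b) c f) =
      dl (Sum.inr a) (Sum.inr b) c (pderiv (i, (Sum.inr j : L ⊕ Fin N)) f) +
        ((if j = a then pderiv (i, c) f else 0) - (if j = b then pderiv (i, c) f else 0)) := by
    intro j
    rw [dl_apply, map_sub, pderiv_colD, pderiv_colD, dl_apply]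
    simp only [Sum.inr.injEq]
    ring
  rw [Finset.sum_congr rfl fun j _ => h j, Finset.sum_add_distrib, Finset.sum_sub_distrib,
    Finset.sum_ite_eq', Finset.sum_ite_eq']
  simp

lemma sum_pderiv_Qn [Fintype L] [DecidableEq L] {N : ℕ} (i : Fin m) {u : ℕ → L ⊕ Fin N}
    (hu : ∀ j, ∃ x, u j = Sum.inr x) (c : L ⊕ Fin N) (n : ℕ)
    (f : MvPolynomial (Fin m × (L ⊕ Fin N)) ℂ)
    (hf : ∑ j : Fin N, pderiv (i, (Sum.inr j : L ⊕ Fin N)) f = 0) :
    ∑ j : Fin N, pderiv (i, (Sum.inr j : L ⊕ Fin N)) (Qn u c n f) = 0 := by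
  induction n with
  | zero =>
    obtain ⟨x, hx⟩ := hu 0
    obtain ⟨y, hy⟩ := hu 1
    rw [Qn_zero, hx, hy, sum_pderiv_dl, sum_pderiv_dl, hf, map_zero, map_zero]
  | succ n ih =>
    obtain ⟨x, hx⟩ := hu (n + 2)
    obtain ⟨y, hy⟩ := hu (n + 1)
    rw [Qn_succ, hx, hy, sum_pderiv_dl, ih, map_zero]

lemma sum_pderiv_perm {N : ℕ} (i : Fin m) (s : Equiv.Perm (Fin N))
    (f : MvPolynomial (Fin m × (L ⊕ Fin N)) ℂ)
    (hf : ∑ j : Fin N, pderiv (i, (Sum.inr j : L ⊕ Fin N)) f = 0) :
    ∑ j : Fin N, pderiv (i, (Sum.inr j : L ⊕ Fin N)) (rc m (Sum.map id s) f) = 0 := by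
  have hs : Function.Injective (Sum.map (id : L → L) s) :=
    Sum.map_injective.2 ⟨Function.injective_id, s.injective⟩
  rw [← Equiv.sum_comp s]
  have h : ∀ j : Fin N, pderiv (i, (Sum.inr (s j) : L ⊕ Fin N)) (rc m (Sum.map id s) f) =
      rc m (Sum.map id s) (pderiv (i, (Sum.inr j : L ⊕ Fin N)) f) := fun j =>
    pderiv_rename (inj_pr hs) (i, (Sum.inr j : L ⊕ Fin N)) f
  rw [Finset.sum_congr rfl fun j _ => h j, ← map_sum, hf, map_zero]

lemma sum_pderiv_castAdd {T : ℕ} (k : ℕ) (i : Fin m)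
    (f : MvPolynomial (Fin m × (L ⊕ Fin T)) ℂ)
    (hf : ∑ j : Fin T, pderiv (i, (Sum.inr j : L ⊕ Fin T)) f = 0) :
    ∑ j : Fin (T + k), pderiv (i, (Sum.inr j : L ⊕ Fin (T + k)))
      (rc m (Sum.map id (Fin.castAdd k)) f) = 0 := by
  classical
  have hs : Function.Injective (Sum.map (id : L → L) (Fin.castAdd (n := T) k)) :=
    Sum.map_injective.2 ⟨Function.injective_id, Fin.castAdd_injective T k⟩
  rw [Fin.sum_univ_add]
  have h : ∀ j : Fin T, pderiv (i, (Sum.inr (Fin.castAdd k j) : L ⊕ Fin (T + k)))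
      (rc m (Sum.map id (Fin.castAdd k)) f) =
      rc m (Sum.map id (Fin.castAdd k)) (pderiv (i, (Sum.inr j : L ⊕ Fin T)) f) := fun j =>
    pderiv_rename (inj_pr hs) (i, (Sum.inr j : L ⊕ Fin T)) f
  have h' : ∀ j : Fin k, pderiv (i, (Sum.inr (Fin.natAdd T j) : L ⊕ Fin (T + k)))
      (rc m (Sum.map id (Fin.castAdd k)) f) = 0 := by
    intro j
    apply pderiv_eq_zero_of_notMem_vars
    intro h7
    have h8 := vars_rename (fun p : Fin m × (L ⊕ Fin T) =>
      (p.1, Sum.map (id : L → L) (Fin.castAdd (n := T) k) p.2)) f h7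
    rw [Finset.mem_image] at h8
    obtain ⟨⟨a, b⟩, _, hab⟩ := h8
    have h9 := congrArg Prod.snd hab
    rcases b with b | b
    · simp at h9
    · simp only [Sum.map_inr, Sum.inr.injEq] at h9
      have h10 := congrArg Fin.val h9
      simp only [Fin.val_castAdd, Fin.val_natAdd] at h10
      omega
  rw [Finset.sum_congr rfl fun j _ => h j, ← map_sum, hf, map_zero,
    Finset.sum_eq_zero fun j _ => h' j, add_zero]

/-- **[D4b]** membership. -/
theorem adQ : AdQStmt := by
  intro m S L _ _ G δ T n mu c hS hG hc f hf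
  obtain ⟨hf1, hf2, hf3, hf4⟩ := hf
  have hι : Function.Injective (Sum.map (id : L → L) (Fin.castAdd (n := T) (n + 2))) :=
    Sum.map_injective.2 ⟨Function.injective_id, Fin.castAdd_injective T (n + 2)⟩
  have hs : ∀ s : Equiv.Perm (Fin (T + (n + 2))), Function.Injective (Sum.map (id : L → L) s) :=
    fun s => Sum.map_injective.2 ⟨Function.injective_id, s.injective⟩
  refine ⟨?_, ?_, ?_, ?_⟩
  · rw [symQ_apply]
    exact sum_mem fun s _ => (rc_mem_HW (hs s)).2 (mem_HW_Qn ((rc_mem_HW hι).2 hf1) n)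
  · intro v hv
    rw [symQ_apply, coeff_sum] at hv
    obtain ⟨s, -, hs0⟩ := Finset.exists_ne_zero_of_sum_ne_zero hv
    obtain ⟨v1, hv1, h1, -⟩ := coeff_rc (hs s) hs0
    obtain ⟨v2, hv2, g1, g2, -, g4, -⟩ := exists_coeff_Qn (fun j => nw_ne c) n
      (fun i j hi hj h => nw_inj hi hj h) hv1
    obtain ⟨v3, hv3, k1, k2⟩ := coeff_rc hι hv2
    obtain ⟨l1, l2⟩ := hf2 v3 hv3
    have hL : ∀ (i : Fin m) (j : L), v (i, Sum.inl j) = v1 (i, Sum.inl j) :=
      fun i j => h1 i (Sum.inl j)
    have hR : ∀ (i : Fin m) (j : Fin (T + (n + 2))), v (i, Sum.inr (s j)) = v1 (i, Sum.inr j) :=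
      fun i j => h1 i (Sum.inr j)
    have hL2 : ∀ (i : Fin m) (j : L), v2 (i, Sum.inl j) = v3 (i, Sum.inl j) :=
      fun i j => k1 i (Sum.inl j)
    have hR2 : ∀ (i : Fin m) (j : Fin T), v2 (i, Sum.inr (Fin.castAdd (n + 2) j)) =
        v3 (i, Sum.inr j) := fun i j => k1 i (Sum.inr j)
    have hN2 : ∀ (i : Fin m) (j : Fin (n + 2)), v2 (i, Sum.inr (Fin.natAdd T j)) = 0 := by
      intro i j
      apply k2
      rintro ⟨b, hb⟩
      rcases b with b | b
      · simp at hb
      · simp only [Sum.map_inr, Sum.inr.injEq] at hb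
        have h10 := congrArg Fin.val hb
        simp only [Fin.val_castAdd, Fin.val_natAdd] at h10
        omega
    constructor
    · intro j
      have e1 : ∑ i, v (i, Sum.inl j) = ∑ i, v1 (i, Sum.inl j) :=
        Finset.sum_congr rfl fun i _ => hL i j
      have e2 : ∑ i, v2 (i, Sum.inl j) = δ j := by
        rw [← l1 j]
        exact Finset.sum_congr rfl fun i _ => hL2 i j
      by_cases hj : j = c
      · subst hj
        simp only [if_true]
        omega
      · simp only [if_neg hj]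
        rw [e1, ← e2]
        apply g1
        · intro h
          exact hj (Sum.inl_injective h)
        · intro k _ h
          exact nw_ne j h.symm
    · intro j
      obtain ⟨j, rfl⟩ := s.surjective j
      have e1 : ∑ i, v (i, Sum.inr (s j)) = ∑ i, v1 (i, Sum.inr j) :=
        Finset.sum_congr rfl fun i _ => hR i j
      rw [e1]
      refine Fin.addCases (fun j => ?_) (fun j => ?_) j
      · have e2 : ∑ i, v2 (i, Sum.inr (Fin.castAdd (n + 2) j)) < S := by
          refine lt_of_eq_of_lt ?_ (l2 j)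
          exact Finset.sum_congr rfl fun i _ => hR2 i j
        refine lt_of_eq_of_lt ?_ e2
        apply g1
        · simp
        · intro k _ h
          rw [nw] at h
          have h2 := congrArg Fin.val (Sum.inr_injective h)
          simp only [Fin.val_castAdd, Fin.val_natAdd] at h2
          omega
      · have e2 : ∑ i, v2 (i, Sum.inr (Fin.natAdd T j)) = 0 :=
          Finset.sum_eq_zero fun i _ => hN2 i j
        have e3 : (Sum.inr (Fin.natAdd T j) : L ⊕ Fin (T + (n + 2))) = nw L T n j := by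
          rw [nw]
          congr 2
          apply Fin.ext
          rw [Fin.val_ofNat, Nat.mod_eq_of_lt j.isLt]
        have e4 := g4 j j.isLt
        rw [← e3, e2] at e4
        omega
  · intro e he s0
    rw [symQ_apply, map_sum]
    conv_rhs => rw [← Equiv.sum_comp (Equiv.mulLeft s0)]
    apply Finset.sum_congr rfl
    intro s _
    rw [Equiv.coe_mulLeft]
    have hec : e c = c := hG e he
    have hfe : rc m (Sum.map e id) (rc m (Sum.map id (Fin.castAdd (n + 2))) f) =
        rc m (Sum.map id (Fin.castAdd (n + 2))) f := by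
      have h1 : rc m (Sum.map e id) (rc m (Sum.map (id : L → L) (Fin.castAdd (n + 2))) f) =
          rc m (Sum.map id (Fin.castAdd (n + 2)))
            (rename (fun p : Fin m × (L ⊕ Fin T) =>
              (p.1, Sum.map e (1 : Equiv.Perm (Fin T)) p.2)) f) := by
        rw [rc, rc, rename_rename, rename_rename]
        congr 1
        congr 1
        funext p
        rcases p with ⟨i, j | j⟩ <;> simp
      rw [h1, hf3 e he 1]
    have hcom : rename (fun p : Fin m × (L ⊕ Fin (T + (n + 2))) =>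
        (p.1, (Equiv.sumCongr e (Equiv.refl (Fin (T + (n + 2))))) p.2))
          (Qn (nw L T n) (Sum.inl c) n (rc m (Sum.map id (Fin.castAdd (n + 2))) f)) =
        Qn (nw L T n) (Sum.inl c) n (rc m (Sum.map id (Fin.castAdd (n + 2))) f) := by
      rw [rename_Qn]
      · congr 1
      · simp [hec]
      · intro j _
        simp [nw]
    have h2 : ∀ g : MvPolynomial (Fin m × (L ⊕ Fin (T + (n + 2)))) ℂ,
        rename (fun p : Fin m × (L ⊕ Fin (T + (n + 2))) => (p.1, Sum.map e s0 p.2))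
          (rc m (Sum.map id s) g) =
        rc m (Sum.map id (s0 * s)) (rename (fun p : Fin m × (L ⊕ Fin (T + (n + 2))) =>
          (p.1, (Equiv.sumCongr e (Equiv.refl (Fin (T + (n + 2))))) p.2)) g) := by
      intro g
      rw [rc, rc, rename_rename, rename_rename]
      congr 1
      congr 1
      funext p
      rcases p with ⟨i, j | j⟩ <;> simp
    rw [h2, hcom]
  · intro i
    rw [symQ_apply]
    have h1 : ∀ j : Fin (T + (n + 2)), pderiv (i, (Sum.inr j : L ⊕ Fin (T + (n + 2))))
        (∑ s : Equiv.Perm (Fin (T + (n + 2))), rc m (Sum.map id s)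
          (Qn (nw L T n) (Sum.inl c) n (rc m (Sum.map id (Fin.castAdd (n + 2))) f))) =
        ∑ s : Equiv.Perm (Fin (T + (n + 2))), pderiv (i, (Sum.inr j : L ⊕ Fin (T + (n + 2))))
          (rc m (Sum.map id s)
          (Qn (nw L T n) (Sum.inl c) n (rc m (Sum.map id (Fin.castAdd (n + 2))) f))) :=
      fun j => map_sum _ _ _
    rw [Finset.sum_congr rfl fun j _ => h1 j, Finset.sum_comm]
    apply Finset.sum_eq_zero
    intro s _
    apply sum_pderiv_perm
    apply sum_pderiv_Qn
    · intro j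
      exact ⟨_, rfl⟩
    · exact sum_pderiv_castAdd (n + 2) i f (hf4 i)

end Vale.Agent.P181.H435
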