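import Vale.Agent.P181.DG.Defs2
import Vale.Agent.P181.H777.Tails
import Vale.Agent.P181.H463.Big
import Vale.Agent.P181.H530.Zero

set_option autoImplicit false

/-!
# P181: one sentence from `PolyS` and `DiagR`

Foulkes' inequality for all `a ≤ b` and all partitions with
`C (1 + log a) ^ c w ≤ (b - a) ^ 2` (`w` = number of cells below row one), provided `3 a ≤ w` or
`w ≤ b`.
-/

namespace Vale.Agent.P181.H435

open Vale.Agent.P181.T4 (ex)
open Vale.Agent.P181.H280 (plethMult)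
open Vale.Agent.P181.PL (dn PolyS)
open Vale.Agent.P181.DG (DiagR)

/-- the stable range -/
lemma stable {a b n : ℕ} (hab : a ≤ b) (lam : Fin n → ℕ) (hw : dn lam 1 ≤ b) :
    plethMult a b n lam ≤ plethMult b a n lam := by
  rcases Nat.lt_or_ge a 2 with ha | ha
  · apply H463.big_stmt
    have h1 : a - 1 = 0 := by omega
    rw [h1]
    simp
  by_cases hz : plethMult a b n lam = 0
  · rw [hz]
    exact Nat.zero_le _
  obtain ⟨hanti, hsum, -⟩ := H530.zero_stmt a b n lam hz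
  rcases n with _ | n
  · exfalso
    rw [Finset.univ_eq_empty, Finset.sum_empty] at hsum
    have h1 : 0 < a * b := Nat.mul_pos (by omega) (by omega)
    omega
  have h1 : lam = H777.pad (a * b) (fun i : Fin n => lam i.succ) := by
    funext i
    refine Fin.cases ?_ (fun i => ?_) i
    · rw [H777.pad_zero]
      rw [Fin.sum_univ_succ] at hsum
      omega
    · rfl
  have h2 : ∑ i : Fin n, lam i.succ ≤ b := by
    refine le_trans (le_of_eq ?_) hw
    unfold dn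
    rw [Fin.sum_univ_succ]
    simp
  set α : Fin n → ℕ := fun i => lam i.succ with hα
  have hα' : Antitone α := fun i j hij => hanti (Fin.succ_le_succ_iff.2 hij)
  have h3 : plethMult a b (n + 1) lam = H777.F a b α := by
    rw [H777.F, ← h1]
  have h4 : plethMult b a (n + 1) lam = H777.F b a α := by
    rw [H777.F, mul_comm b a, ← h1]
  rw [h3, h4]
  rcases H777.row_or_rest (a := a) α hα' h2 with h5 | h5
  · exact H777.F_le_of_row hab α h5
  · exact H777.F_le_of_foulkes le_rfl α h5.1 (H777.F_foulkes_few' hab α hα' h5.2)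

/-- the theorem above the parabola `w = (b - a) ^ 2 / polylog` -/
def UniS : Prop := ∃ (C : ℝ) (c : ℕ), 0 < C ∧ ∀ a b : ℕ, a ≤ b →
  ∀ (n : ℕ) (lam : Fin n → ℕ), (3 * a ≤ dn lam 1 ∨ dn lam 1 ≤ b) →
  C * (1 + Real.log a) ^ c * (dn lam 1 : ℝ) ≤ ((b : ℝ) - a) ^ 2 →
  plethMult a b n lam ≤ plethMult b a n lam

theorem uniS (hP : PolyS) (hD : DiagR) : UniS := by
  obtain ⟨C1, c1, hC1, h1⟩ := hP
  obtain ⟨C2, c2, hC2, h2⟩ := hD
  refine ⟨C2 * (1 + C1) ^ 2, c2 + 2 * c1, by positivity, fun a b hab n lam hw h => ?_⟩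
  rcases hw with hw | hw
  swap
  · exact stable hab lam hw
  have hL0 : 0 ≤ Real.log a := Real.log_natCast_nonneg a
  obtain ⟨L, hL⟩ : ∃ L : ℝ, L = 1 + Real.log a := ⟨_, rfl⟩
  rw [← hL] at h
  have hL1 : 1 ≤ L := by
    rw [hL]
    linarith
  have hw0 : (0 : ℝ) ≤ (dn lam 1 : ℝ) := Nat.cast_nonneg _
  have hLc : 1 ≤ L ^ (2 * c1) := one_le_pow₀ hL1
  have hC12 : 1 ≤ (1 + C1) ^ 2 := one_le_pow₀ (by linarith)
  obtain ⟨T, hT⟩ : ∃ T : ℝ, T = C2 * L ^ c2 * (dn lam 1 : ℝ) := ⟨_, rfl⟩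
  have hT0 : 0 ≤ T := by
    rw [hT]
    positivity
  have h3 : (1 + C1) ^ 2 * L ^ (2 * c1) * T ≤ ((b : ℝ) - a) ^ 2 := by
    calc (1 + C1) ^ 2 * L ^ (2 * c1) * T =
          C2 * (1 + C1) ^ 2 * L ^ (c2 + 2 * c1) * (dn lam 1 : ℝ) := by
          rw [hT, pow_add]
          ring
      _ ≤ _ := h
  have h4 : T ≤ ((b : ℝ) - a) ^ 2 := by
    refine le_trans ?_ h3
    have h5 : 1 ≤ (1 + C1) ^ 2 * L ^ (2 * c1) := one_le_mul_of_one_le_of_one_le hC12 hLc
    nlinarith
  rcases le_or_gt T ((a : ℝ) ^ 2) with hTa | hTa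
  · refine h2 a b hab n lam hw ?_ ?_
    · rw [← hL, ← hT]
      exact h4
    · rw [← hL, ← hT]
      exact hTa
  · apply h1 a b
    rw [← hL]
    have hab' : (a : ℝ) ≤ b := by exact_mod_cast hab
    have ha0 : (0 : ℝ) ≤ a := Nat.cast_nonneg _
    have h5 : ((1 + C1) * L ^ c1 * a) ^ 2 ≤ ((b : ℝ) - a) ^ 2 := by
      calc ((1 + C1) * L ^ c1 * a) ^ 2 = (1 + C1) ^ 2 * L ^ (2 * c1) * (a : ℝ) ^ 2 := by
            rw [mul_pow, mul_pow, ← pow_mul, mul_comm c1 2]
        _ ≤ (1 + C1) ^ 2 * L ^ (2 * c1) * T := by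
            apply mul_le_mul_of_nonneg_left hTa.le
            positivity
        _ ≤ _ := h3
    have h6 : (1 + C1) * L ^ c1 * a ≤ (b : ℝ) - a := by
      have h7 : 0 ≤ (b : ℝ) - a := by linarith
      exact abs_le_of_sq_le_sq' h5 h7 |>.2
    have h8 : 0 ≤ L ^ c1 * (a : ℝ) := by positivity
    calc C1 * a * L ^ c1 ≤ (1 + C1) * L ^ c1 * a := by nlinarith
      _ ≤ (b : ℝ) - a := h6
      _ ≤ b := by linarith

end Vale.Agent.P181.H435
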