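import Vale.Agent.P181.H435.Uni
import Vale.Agent.P181.DG9.H924.E.Main

set_option autoImplicit false

/-!
# P181: one sentence from `PolyS`, `DiagE` (and `TwiceS`)

Foulkes' inequality for all `a ≤ b` and all partitions with
`C (1 + log a) ^ c w ≤ (b - a) ^ 2` (`w` = number of cells below row one), provided
`2 a + a / (1 + log a) ^ 7 ≤ w` or `w ≤ 2 a` or `w ≤ b`.
-/

namespace Vale.Agent.P181.H435

open Vale.Agent.P181.H280 (plethMult)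
open Vale.Agent.P181.PL (dn PolyS)
open Vale.Agent.P181.DG.E924 (DiagE)

/-- The literal of `TW.twice`. -/
def TwiceS : Prop := ∀ a b : ℕ, a ≤ b → ∀ (n : ℕ) (lam : Fin n → ℕ), dn lam 1 ≤ 2 * a →
  (dn lam 1 < 2 * a ∨ a + 2 ≤ b) → plethMult a b n lam ≤ plethMult b a n lam

/-- the theorem above the parabola `w = (b - a) ^ 2 / polylog`, version E -/
def UniE : Prop := ∃ (C : ℝ) (c : ℕ), 1 ≤ C ∧ ∀ a b : ℕ, a ≤ b →
  ∀ (n : ℕ) (lam : Fin n → ℕ),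
  (dn lam 1 ≤ b ∨ 2 * (a : ℝ) + a / (1 + Real.log a) ^ 7 ≤ (dn lam 1 : ℝ)) →
  C * (1 + Real.log a) ^ c * (dn lam 1 : ℝ) ≤ ((b : ℝ) - a) ^ 2 →
  plethMult a b n lam ≤ plethMult b a n lam

/-- the theorem above the parabola `w = (b - a) ^ 2 / polylog`, version W: only the strip
`max (2 a, b) < w < 2 a + a / (1 + log a) ^ 7` is missing -/
def UniW : Prop := ∃ (C : ℝ) (c : ℕ), 1 ≤ C ∧ ∀ a b : ℕ, a ≤ b →
  ∀ (n : ℕ) (lam : Fin n → ℕ),
  (dn lam 1 ≤ 2 * a ∨ dn lam 1 ≤ b ∨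
    2 * (a : ℝ) + a / (1 + Real.log a) ^ 7 ≤ (dn lam 1 : ℝ)) →
  C * (1 + Real.log a) ^ c * (dn lam 1 : ℝ) ≤ ((b : ℝ) - a) ^ 2 →
  plethMult a b n lam ≤ plethMult b a n lam

theorem uniE (hP : PolyS) (hD : DiagE) : UniE := by
  obtain ⟨C1, c1, hC1, h1⟩ := hP
  obtain ⟨C2, c2, hC2, h2⟩ := hD
  refine ⟨(1 + C2) * (1 + C1) ^ 2, c2 + 2 * c1, ?_, fun a b hab n lam hw h => ?_⟩
  · have e1 : 1 ≤ (1 + C1) ^ 2 := one_le_pow₀ (by linarith)
    exact one_le_mul_of_one_le_of_one_le (by linarith) e1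
  have hL0 : 0 ≤ Real.log a := Real.log_natCast_nonneg a
  obtain ⟨L, hL⟩ : ∃ L : ℝ, L = 1 + Real.log a := ⟨_, rfl⟩
  rw [← hL] at h
  have hL1 : 1 ≤ L := by
    rw [hL]
    linarith
  have hw0 : (0 : ℝ) ≤ (dn lam 1 : ℝ) := Nat.cast_nonneg _
  have hLc : 1 ≤ L ^ (2 * c1) := one_le_pow₀ hL1
  have hC12 : 1 ≤ (1 + C1) ^ 2 := one_le_pow₀ (by linarith)
  obtain ⟨T, hT⟩ : ∃ T : ℝ, T = (1 + C2) * L ^ c2 * (dn lam 1 : ℝ) := ⟨_, rfl⟩
  have hT0 : 0 ≤ T := by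
    rw [hT]
    positivity
  have hTT : C2 * L ^ c2 * (dn lam 1 : ℝ) ≤ T := by
    have e1 : 0 ≤ L ^ c2 * (dn lam 1 : ℝ) := by positivity
    rw [hT]
    nlinarith
  have h3 : (1 + C1) ^ 2 * L ^ (2 * c1) * T ≤ ((b : ℝ) - a) ^ 2 := by
    calc (1 + C1) ^ 2 * L ^ (2 * c1) * T =
          (1 + C2) * (1 + C1) ^ 2 * L ^ (c2 + 2 * c1) * (dn lam 1 : ℝ) := by
          rw [hT, pow_add]
          ring
      _ ≤ _ := h
  have h4 : T ≤ ((b : ℝ) - a) ^ 2 := by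
    refine le_trans ?_ h3
    have h5 : 1 ≤ (1 + C1) ^ 2 * L ^ (2 * c1) := one_le_mul_of_one_le_of_one_le hC12 hLc
    nlinarith
  rcases le_or_gt T ((a : ℝ) ^ 2) with hTa | hTa
  · refine h2 a b hab n lam hw ?_ ?_
    · rw [← hL]
      exact hTT.trans h4
    · rw [← hL]
      exact hTT.trans hTa
  · apply h1 a b
    rw [← hL]
    have hab' : (a : ℝ) ≤ b := by exact_mod_cast hab
    have ha0 : (0 : ℝ) ≤ a := Nat.cast_nonneg _
    have h5 : ((1 + C1) * L ^ c1 * a) ^ 2 ≤ ((b : ℝ) - a) ^ 2 := by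
      calc ((1 + C1) * L ^ c1 * a) ^ 2 = (1 + C1) ^ 2 * L ^ (2 * c1) * (a : ℝ) ^ 2 := by
            rw [mul_pow, mul_pow, ← pow_mul, mul_comm c1 2]
        _ ≤ (1 + C1) ^ 2 * L ^ (2 * c1) * T := by
            apply mul_le_mul_of_nonneg_left hTa.le
            positivity
        _ ≤ _ := h3
    have h6 : (1 + C1) * L ^ c1 * a ≤ (b : ℝ) - a := by
      have h7 : 0 ≤ (b : ℝ) - a := by linarith
      exact abs_le_of_sq_le_sq' h5 h7 |>.2
    have h8 : 0 ≤ L ^ c1 * (a : ℝ) := by positivity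
    calc C1 * a * L ^ c1 ≤ (1 + C1) * L ^ c1 * a := by nlinarith
      _ ≤ (b : ℝ) - a := h6
      _ ≤ b := by linarith

theorem uniW (hP : PolyS) (hD : DiagE) (hT : TwiceS) : UniW := by
  obtain ⟨C, c, hC, h1⟩ := uniE hP hD
  refine ⟨C, c, hC, fun a b hab n lam hw h => ?_⟩
  rcases hw with hw | hw
  swap
  · exact h1 a b hab n lam hw h
  rcases Nat.lt_or_ge (dn lam 1) (2 * a) with h2 | h2
  · exact hT a b hab n lam hw (Or.inl h2)
  rcases Nat.eq_zero_or_pos a with rfl | ha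
  · exact h1 0 b hab n lam (Or.inl (by omega)) h
  apply hT a b hab n lam hw
  right
  by_contra hb
  have hL0 : 0 ≤ Real.log a := Real.log_natCast_nonneg a
  have hL1 : (1 : ℝ) ≤ (1 + Real.log a) ^ c := one_le_pow₀ (by linarith)
  have h3 : (2 : ℝ) ≤ (dn lam 1 : ℝ) := by
    have : 2 ≤ dn lam 1 := by omega
    exact_mod_cast this
  have h4 : (1 : ℝ) ≤ C * (1 + Real.log a) ^ c := one_le_mul_of_one_le_of_one_le hC hL1
  have h5 : (b : ℝ) ≤ a + 1 := by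
    have : b ≤ a + 1 := by omega
    exact_mod_cast this
  have h6 : (a : ℝ) ≤ b := by exact_mod_cast hab
  nlinarith

end Vale.Agent.P181.H435
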