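import Vale.Agent.P181.H435.UniE
import Vale.Agent.P181.DU.Defs2

set_option autoImplicit false

/-!
# P181: one sentence from `PolyS`, `LinS`, `DU.DiagV` and `TwiceS`
-/

namespace Vale.Agent.P181.H435

open Vale.Agent.P181.T4 (ex)
open Vale.Agent.P181.H280 (plethMult)
open Vale.Agent.P181.PL (dn PolyS)
open Vale.Agent.P181.H467.NT (LinS)

/-- One theorem per condition: the range condition and the conditions on the cells below the
first and the second row. -/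
def UniV : Prop := ∃ (C : ℝ) (c : ℕ), 1 ≤ C ∧ ∀ a b : ℕ, a ≤ b →
  ∀ (n : ℕ) (lam : Fin n → ℕ),
  (dn lam 1 ≤ 2 * a ∨ dn lam 1 ≤ b ∨
    2 * (a : ℝ) + a / (1 + Real.log a) ^ 7 ≤ (dn lam 1 : ℝ)) →
  C * (1 + Real.log a) ^ c * (dn lam 1 : ℝ) ≤ ((b : ℝ) - a) * max (a : ℝ) ((b : ℝ) - a) →
  (C * (1 + Real.log a) ^ c * (dn lam 1 : ℝ) ≤ (dn lam 2 : ℝ) ^ 2 ∨ a + dn lam 2 ≤ b + 1) →
  plethMult a b n lam ≤ plethMult b a n lam

/-- Comparison of two constants. -/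
lemma absorb {C0 C L w : ℝ} {c0 c : ℕ} (h0 : 0 ≤ C0) (h1 : C0 ≤ C) (hc : c0 ≤ c) (hL : 1 ≤ L)
    (hw : 0 ≤ w) : C0 * L ^ c0 * w ≤ C * L ^ c * w := by
  apply mul_le_mul_of_nonneg_right _ hw
  exact mul_le_mul h1 (pow_le_pow_right₀ hL hc) (by positivity) (h0.trans h1)

/-- If `b` is not large against `a`, then `w` is small against `a ^ 2`. -/
lemma small_w {C1 C' L a b w : ℝ} {c1 c' : ℕ} (hC1 : 0 < C1) (hL : 1 ≤ L)
    (ha : 0 ≤ a) (hb : 0 ≤ b) (hbs : b < C1 * a * L ^ c1)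
    (h : C' * (1 + C1) ^ 2 * L ^ (c' + 2 * c1) * w ≤ b ^ 2) : C' * L ^ c' * w ≤ a ^ 2 := by
  have h1 : b ^ 2 ≤ ((1 + C1) * L ^ c1 * a) ^ 2 := by
    apply pow_le_pow_left₀ hb
    have h2 : 0 ≤ L ^ c1 * a := by positivity
    nlinarith
  have h3 : (1 + C1) ^ 2 * L ^ (2 * c1) * (C' * L ^ c' * w) ≤
      (1 + C1) ^ 2 * L ^ (2 * c1) * a ^ 2 := by
    calc (1 + C1) ^ 2 * L ^ (2 * c1) * (C' * L ^ c' * w) =
          C' * (1 + C1) ^ 2 * L ^ (c' + 2 * c1) * w := by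
          rw [pow_add]
          ring
      _ ≤ b ^ 2 := h
      _ ≤ ((1 + C1) * L ^ c1 * a) ^ 2 := h1
      _ = (1 + C1) ^ 2 * L ^ (2 * c1) * a ^ 2 := by
          rw [mul_pow, mul_pow, ← pow_mul, mul_comm c1 2]
  have h4 : 0 < (1 + C1) ^ 2 * L ^ (2 * c1) := by positivity
  exact le_of_mul_le_mul_left h3 h4

/-- `w ≤ 2 a` -/
lemma of_twice (hT : TwiceS) {a b n : ℕ} (hab : a ≤ b) (lam : Fin n → ℕ) {K : ℝ} (hK : 1 ≤ K)
    (hw : dn lam 1 ≤ 2 * a)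
    (h : K * (dn lam 1 : ℝ) ≤ ((b : ℝ) - a) * max (a : ℝ) ((b : ℝ) - a)) :
    plethMult a b n lam ≤ plethMult b a n lam := by
  rcases Nat.lt_or_ge (dn lam 1) (2 * a) with h2 | h2
  · exact hT a b hab n lam hw (Or.inl h2)
  rcases Nat.eq_zero_or_pos a with rfl | ha
  · exact stable hab lam (by omega)
  apply hT a b hab n lam hw
  right
  by_contra hb
  have h3 : (dn lam 1 : ℝ) = 2 * a := by
    have : dn lam 1 = 2 * a := le_antisymm hw h2
    rw [this]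
    push_cast
    ring
  have ha1 : (1 : ℝ) ≤ a := by exact_mod_cast ha
  have h5 : (b : ℝ) ≤ a + 1 := by
    have : b ≤ a + 1 := by omega
    exact_mod_cast this
  have h6 : (a : ℝ) ≤ b := by exact_mod_cast hab
  have h7 : max (a : ℝ) ((b : ℝ) - a) ≤ a := max_le le_rfl (by linarith)
  have h8 : ((b : ℝ) - a) * max (a : ℝ) ((b : ℝ) - a) ≤ 1 * a := by
    apply mul_le_mul (by linarith) h7 _ (by norm_num)
    exact le_max_of_le_left (by linarith)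
  have h9 : 1 * (dn lam 1 : ℝ) ≤ K * (dn lam 1 : ℝ) :=
    mul_le_mul_of_nonneg_right hK (Nat.cast_nonneg _)
  linarith

theorem uniV (hP : PolyS) (hLin : LinS) (hV : DU.DiagV) (hT : TwiceS) : UniV := by
  obtain ⟨C1, c1, hC1, h1⟩ := hP
  obtain ⟨C2, c2, hC2, h2⟩ := hLin
  obtain ⟨C3, c3, hC3, h3⟩ := hV
  obtain ⟨C', hC'⟩ : ∃ C' : ℝ, C' = 1 + C2 + 4 * C3 := ⟨_, rfl⟩
  obtain ⟨c', hc'⟩ : ∃ c' : ℕ, c' = c2 + c3 := ⟨_, rfl⟩
  have hC'0 : 1 ≤ C' := by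
    rw [hC']
    linarith
  have hC11 : 1 ≤ (1 + C1) ^ 2 := one_le_pow₀ (by linarith)
  refine ⟨C' * (1 + C1) ^ 2, c' + 2 * c1, one_le_mul_of_one_le_of_one_le hC'0 hC11,
    fun a b hab n lam hr hw hD => ?_⟩
  have hL0 : 0 ≤ Real.log a := Real.log_natCast_nonneg a
  obtain ⟨L, hL⟩ : ∃ L : ℝ, L = 1 + Real.log a := ⟨_, rfl⟩
  rw [← hL] at hw hD hr
  have hL1 : 1 ≤ L := by
    rw [hL]
    linarith
  have hab' : (a : ℝ) ≤ b := by exact_mod_cast hab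
  have ha0 : (0 : ℝ) ≤ a := Nat.cast_nonneg _
  have hb0 : (0 : ℝ) ≤ b := Nat.cast_nonneg _
  have hw0 : (0 : ℝ) ≤ (dn lam 1 : ℝ) := Nat.cast_nonneg _
  have hK : 1 ≤ C' * (1 + C1) ^ 2 * L ^ (c' + 2 * c1) :=
    one_le_mul_of_one_le_of_one_le (one_le_mul_of_one_le_of_one_le hC'0 hC11)
      (one_le_pow₀ hL1)
  have hr' : dn lam 1 ≤ 2 * a ∨ (dn lam 1 ≤ b ∨
      2 * (a : ℝ) + a / L ^ 7 ≤ (dn lam 1 : ℝ)) := hr
  rcases hr' with hr | hr
  · exact of_twice hT hab lam hK hr hw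
  rcases le_or_gt (C1 * a * L ^ c1) (b : ℝ) with hb | hb
  · apply h1 a b
    rw [← hL]
    exact hb
  have hmax : ((b : ℝ) - a) * max (a : ℝ) ((b : ℝ) - a) ≤ (b : ℝ) ^ 2 := by
    rw [sq]
    apply mul_le_mul (by linarith) (max_le hab' (by linarith)) _ hb0
    exact le_max_of_le_left ha0
  have hwa : C' * L ^ c' * (dn lam 1 : ℝ) ≤ (a : ℝ) ^ 2 :=
    small_w hC1 hL1 ha0 hb0 hb (hw.trans hmax)
  rcases le_or_gt (5 * a) b with hb5 | hb5
  · apply h2 a b hb5 n lam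
    rw [← hL]
    exact (absorb hC2.le (by rw [hC']; linarith) (by omega) hL1 hw0).trans hwa
  apply h3 a b hab n lam
  · rw [← hL]
    exact hr
  · rw [← hL]
    have e1 : 4 * (C3 * L ^ c3 * (dn lam 1 : ℝ)) ≤
        C' * (1 + C1) ^ 2 * L ^ (c' + 2 * c1) * (dn lam 1 : ℝ) := by
      calc 4 * (C3 * L ^ c3 * (dn lam 1 : ℝ)) = (4 * C3) * L ^ c3 * (dn lam 1 : ℝ) := by ring
        _ ≤ C' * (1 + C1) ^ 2 * L ^ (c' + 2 * c1) * (dn lam 1 : ℝ) := by
          refine absorb (by linarith) ?_ (by omega) hL1 hw0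
          calc 4 * C3 ≤ C' := by
                rw [hC']
                linarith
            _ ≤ C' * (1 + C1) ^ 2 := le_mul_of_one_le_right (by linarith) hC11
    have e2 : ((b : ℝ) - a) * max (a : ℝ) ((b : ℝ) - a) ≤ ((b : ℝ) - a) * (4 * a) := by
      apply mul_le_mul_of_nonneg_left _ (by linarith)
      have e3 : (b : ℝ) ≤ 5 * a := by
        have : b ≤ 5 * a := hb5.le
        exact_mod_cast this
      exact max_le (by linarith) (by linarith)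
    have e4 := e1.trans (hw.trans e2)
    linarith
  · rw [← hL]
    exact (absorb hC3.le (by rw [hC']; linarith) (by omega) hL1 hw0).trans hwa
  · rw [← hL]
    rcases hD with hD | hD
    · left
      refine (absorb hC3.le ?_ (by omega) hL1 hw0).trans hD
      calc C3 ≤ C' := by
            rw [hC']
            linarith
        _ ≤ C' * (1 + C1) ^ 2 := le_mul_of_one_le_right (by linarith) hC11
    · exact Or.inr hD

end Vale.Agent.P181.H435
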